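import Vale.Agent.P203.Sph.Cells
import Vale.Agent.P203.Gar.Delta

/-!
# P203, block SPH, part 2: the spherical case (Deligne) in the language of good classes
-/

namespace Vale.Agent.P203.Sph

open CoxeterSystem Vale.Agent.P203.Gar Vale.Agent.P203.Cox

variable {S : Type} {M : CoxeterMatrix S}

theorem len_toW_le {T : Set S} {x : ArtinGroup M} (hx : x ∈ PM M T) :
    (len M (toW M x) : ℤ) ≤ alen x := by
  refine PM_induction_right (p := fun x => (len M (toW M x) : ℤ) ≤ alen x) ?_ ?_ hx
  · rw [map_one, len_one', alen_one]; rfl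
  · intro x hx s hs ih
    rw [map_mul, alen_mul, toW_gen, alen_gen]
    rcases len_mul_simple (toW M x) s with h | h <;> omega

theorem PM_cases {T : Set S} {x : ArtinGroup M} (hx : x ∈ PM M T) :
    x = 1 ∨ ∃ s ∈ T, x * (artinGen M s)⁻¹ ∈ PM M T := by
  by_cases h : x = 1
  · exact Or.inl h
  · obtain ⟨t, ht, b, hb, rfl⟩ := exists_right_of_mem_PM hx h
    exact Or.inr ⟨t, ht, by rw [mul_inv_cancel_right]; exact hb⟩

/-! ### Longest elements -/

/-- the longest element of `W_T` -/
noncomputable abbrev wl (T : Finset S) : M.Group := w0 M.toCoxeterSystem (T : Set S)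

theorem wl_mem (T : Finset S) : (wl T : M.Group) ∈ WP M (T : Set S) := w0_mem

theorem tl_wl {T : Finset S} (hT : Spherical M T) {w : M.Group} (hw : w ∈ WP M (T : Set S)) :
    tl (wl T : M.Group) = tl w * tl (w⁻¹ * wl T) := by
  have : Finite (parab M.toCoxeterSystem (T : Set S)) := hT
  rw [← tl_mul, mul_inv_cancel_left]
  rw [mul_inv_cancel_left]
  have := length_mul_w0 (cs := M.toCoxeterSystem) (inv_mem hw)
  rw [M.toCoxeterSystem.length_inv] at this
  have h : len M (w⁻¹ * wl T) + len M w = len M (wl T : M.Group) := this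
  omega

/-- an element of `W_T` all of whose right multiples go down is the longest one. -/
theorem eq_wl {T : Finset S} (hT : Spherical M T) {w : M.Group} (hw : w ∈ WP M (T : Set S))
    (h : ∀ t ∈ T, len M (w * M.simple t) < len M w) : w = wl T := by
  have : Finite (parab M.toCoxeterSystem (T : Set S)) := hT
  exact eq_w0 hw fun t ht => h t (by exact_mod_cast ht)

theorem len_wl_mul {T : Finset S} (hT : Spherical M T) {w : M.Group}
    (hw : w ∈ WP M (T : Set S)) : len M (wl T * w) + len M w = len M (wl T : M.Group) := by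
  have : Finite (parab M.toCoxeterSystem (T : Set S)) := hT
  exact length_w0_mul hw

theorem wl_len {T : Finset S} (hT : Spherical M T) {w : M.Group} (hw : w ∈ WP M (T : Set S)) :
    len M w + len M (w⁻¹ * wl T) = len M (wl T : M.Group) := by
  have : Finite (parab M.toCoxeterSystem (T : Set S)) := hT
  have := length_mul_w0 (cs := M.toCoxeterSystem) (inv_mem hw)
  rw [M.toCoxeterSystem.length_inv] at this
  have h : len M (w⁻¹ * wl T) + len M w = len M (wl T : M.Group) := this
  omega

theorem wl_desc {T : Finset S} (hT : Spherical M T) {t : S} (ht : t ∈ T) :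
    len M (wl T * M.simple t : M.Group) < len M (wl T : M.Group) := by
  have : Finite (parab M.toCoxeterSystem (T : Set S)) := hT
  exact w0_isMax t (by exact_mod_cast ht)

/-- The lcm property of positive elements: a positive element which is right divisible by all
`σ_s`, `s ∈ R`, is right divisible by `Δ_R`. -/
def LcmProp (M : CoxeterMatrix S) (U : Finset S) : Prop :=
  ∀ h ∈ PM M U, ∀ R : Finset S, R ⊆ U → (∀ s ∈ R, h * (artinGen M s)⁻¹ ∈ PM M U) →
    h * (tl (wl R : M.Group))⁻¹ ∈ PM M U

/-- a set of positive elements which is closed under removing generators on the right is closed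
under removing positive elements on the right -/
theorem prefix_closed {U : Set S} {I : Set (ArtinGroup M)}
    (hI : ∀ h ∈ PM M U, ∀ s ∈ U, h * artinGen M s ∈ I → h ∈ I) {p : ArtinGroup M}
    (hp : p ∈ PM M U) : ∀ h ∈ PM M U, h * p ∈ I → h ∈ I := by
  refine PM_induction_right (p := fun p => ∀ h ∈ PM M U, h * p ∈ I → h ∈ I) ?_ ?_ hp
  · intro h _ h2
    rwa [mul_one] at h2
  · intro x hx s hs ih h hh h2
    refine ih h hh (hI _ (mul_mem hh hx) s hs ?_)
    rwa [mul_assoc]

theorem wp_empty {w : M.Group} (hw : w ∈ WP M (∅ : Set S)) : w = 1 := by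
  have h : w ∈ parab M.toCoxeterSystem (∅ : Set S) := hw
  rw [parab_empty] at h
  exact Subgroup.mem_bot.1 h

theorem spherical_empty : Spherical M (∅ : Finset S) := by
  unfold Spherical
  rw [Finset.coe_empty, Set.image_empty, Subgroup.closure_empty]
  infer_instance

/-- the vertices of the cell `(b, R)` other than the top one. -/
theorem good_prefix {Good : Set (ACell M) → Prop} (C : GoodClass Good) {U : Finset S} (hU : Spherical M U)
    (lcm : LcmProp M U) : ∀ (n : ℕ) (g : ArtinGroup M) (I : Set (ArtinGroup M)), I.Finite →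
    I.ncard = n → I.Nonempty → (∀ h ∈ I, h ∈ PM M (U : Set S)) →
    (∀ h ∈ PM M (U : Set S), ∀ s ∈ (U : Set S), h * artinGen M s ∈ I → h ∈ I) →
    Good (full ((fun x => g * x) '' I)) := by
  intro n
  induction n using Nat.strong_induction_on with
  | _ n ih =>
  intro g I hfin hcard hne hpos hpre
  classical
  obtain ⟨h, hhI, hmax⟩ := Set.exists_max_image I alen hfin hne
  have hh := hpos h hhI
  set R : Finset S := U.filter (fun s => h * (artinGen M s)⁻¹ ∈ PM M (U : Set S)) with hR
  have hRU : R ⊆ U := Finset.filter_subset _ _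
  have hRs : Spherical M R := hU.subset hRU
  have hRd : ∀ s ∈ R, h * (artinGen M s)⁻¹ ∈ PM M (U : Set S) := fun s hs =>
    (Finset.mem_filter.1 hs).2
  have hb : h * (tl (wl R : M.Group))⁻¹ ∈ PM M (U : Set S) := lcm h hh R hRU hRd
  set b : ArtinGroup M := h * (tl (wl R : M.Group))⁻¹ with hbdef
  have hRU' : (R : Set S) ⊆ (U : Set S) := by exact_mod_cast hRU
  -- the vertices of the top cell lie in `I`
  have hvert : ∀ w ∈ WP M (R : Set S), b * tl w ∈ I := by
    intro w hw
    refine prefix_closed hpre (p := tl (w⁻¹ * wl R)) (tl_mem_PM ?_) _ ?_ ?_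
    · exact mul_mem (inv_mem (WP_mono hRU' hw)) (WP_mono hRU' (wl_mem R))
    · exact mul_mem hb (PM_mono hRU' (tl_mem_PM hw))
    · rw [mul_assoc, ← tl_wl hRs hw, hbdef, inv_mul_cancel_right]
      exact hhI
  let c : ACell M := ⟨g * b, R, hRs⟩
  have hcv : c.vert ⊆ (fun x => g * x) '' I := by
    rintro x ⟨w, hw, rfl⟩
    exact ⟨b * tl w, hvert w hw, by simp [c, mul_assoc]⟩
  -- the decomposition
  have hdec : full ((fun x => g * x) '' I) =
      full ((fun x => g * x) '' (I \ {h})) ∪ Set.Iic c := by
    apply Set.Subset.antisymm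
    · intro d hd
      rw [Set.mem_union]
      by_cases hin : ∃ w ∈ WP M (d.T : Set S), d.g * tl w = g * h
      · right
        obtain ⟨w, hw, hwh⟩ := hin
        have hw0 : w = wl d.T := by
          refine eq_wl d.sph hw fun t ht => ?_
          rcases len_lt_or w t with h' | h'
          · exact h'
          · exfalso
            have ht' : t ∈ (d.T : Set S) := by exact_mod_cast ht
            obtain ⟨y, hyI, hy⟩ := hd (w * M.simple t) (mul_mem hw (simple_mem_WP ht'))
            rw [tl_mul_simple h', ← mul_assoc, hwh, mul_assoc] at hy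
            have hy' : y = h * artinGen M t := mul_left_cancel hy
            have := hmax y hyI
            rw [hy', alen_mul, alen_gen] at this
            omega
        have hTR : (d.T : Set S) ⊆ (R : Set S) := by
          intro t ht
          have ht' : t ∈ d.T := by exact_mod_cast ht
          have hdesc := wl_desc (M := M) d.sph ht'
          obtain ⟨y, hyI, hy⟩ := hd (wl d.T * M.simple t)
            (mul_mem (wl_mem d.T) (simple_mem_WP ht))
          have h1 : d.g * tl (wl d.T * M.simple t : M.Group) = g * (h * (artinGen M t)⁻¹) := by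
            rw [← mul_assoc, ← hwh, hw0, tl_eq_mul_of_desc hdesc]
            group
          have hy' : y = h * (artinGen M t)⁻¹ := mul_left_cancel (hy.trans h1)
          have h2 : h * (artinGen M t)⁻¹ ∈ PM M (U : Set S) := hy' ▸ hpos y hyI
          have h3 : artinGen M t ∈ AP M (U : Set S) := by
            have := mul_mem (inv_mem (mem_AP_of_PM h2)) (mem_AP_of_PM hh)
            simpa using this
          have h4 : t ∈ (U : Set S) := by
            have := toW_mem_WP h3
            rw [toW_gen] at this
            exact simple_mem_parab_iff.1 this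
          have h5 : t ∈ R := Finset.mem_filter.2 ⟨by exact_mod_cast h4, h2⟩
          exact_mod_cast h5
        rw [← full_vert]
        intro v hv
        have hwT : (wl d.T : M.Group) ∈ WP M (R : Set S) := WP_mono hTR (wl_mem d.T)
        -- `x = w_R w_T⁻¹`
        have hmin : ∀ t ∈ (d.T : Set S), len M (wl R * (wl d.T)⁻¹ : M.Group) <
            len M (wl R * (wl d.T)⁻¹ * M.simple t : M.Group) := by
          intro t ht
          have e1 := len_wl_mul hRs (w := (wl d.T : M.Group)⁻¹) (inv_mem hwT)
          have e2 := len_wl_mul hRs (w := (wl d.T : M.Group)⁻¹ * M.simple t)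
            (mul_mem (inv_mem hwT) (simple_mem_WP (hTR ht)))
          have e3 := wl_len d.sph (simple_mem_WP (M := M) ht)
          rw [len_simple] at e3
          have e4 : len M ((wl d.T : M.Group)⁻¹ * M.simple t) =
              len M ((M.simple t)⁻¹ * wl d.T : M.Group) := by
            rw [← len_inv, mul_inv_rev, inv_inv]
          rw [← mul_assoc] at e2
          rw [len_inv] at e1
          omega
        refine ⟨wl R * (wl d.T)⁻¹ * v, ?_, ?_⟩
        · exact mul_mem (mul_mem (wl_mem R) (inv_mem hwT)) (WP_mono hTR hv)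
        · rw [tl_mul (len_mul_of_min hmin hv)]
          have h5 : tl (wl R : M.Group) = tl (wl R * (wl d.T)⁻¹ : M.Group) * tl (wl d.T) := by
            rw [← tl_mul, inv_mul_cancel_right]
            exact len_mul_of_min hmin (wl_mem d.T)
          have h6 : d.g = g * b * tl (wl R * (wl d.T)⁻¹ : M.Group) := by
            have h7 : d.g = g * h * (tl (wl d.T : M.Group))⁻¹ := by
              rw [← hwh, hw0, mul_inv_cancel_right]
            rw [h7, hbdef, h5]
            group
          rw [h6]
          simp [c, mul_assoc]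
      · left
        push Not at hin
        intro w hw
        obtain ⟨y, hyI, hy⟩ := hd w hw
        refine ⟨y, ⟨hyI, ?_⟩, hy⟩
        rintro rfl
        exact hin w hw hy.symm
    · refine Set.union_subset (full_mono (Set.image_mono Set.sdiff_subset)) ?_
      rw [← full_vert]
      exact full_mono hcv
  by_cases hRe : R = ∅
  · -- `h = 1`
    have h1 : h = 1 := by
      rcases PM_cases hh with h1 | ⟨s, hs, hs'⟩
      · exact h1
      · exfalso
        have : s ∈ R := Finset.mem_filter.2 ⟨by exact_mod_cast hs, hs'⟩
        rw [hRe] at this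
        exact absurd this (Finset.notMem_empty _)
    have hI1 : I = {1} := by
      apply Set.Subset.antisymm
      · intro x hx
        have h2 := hmax x hx
        rw [h1, alen_one] at h2
        rcases PM_cases (hpos x hx) with h3 | ⟨s, hs, hs'⟩
        · exact h3
        · exfalso
          have h4 := alen_nonneg hs'
          rw [alen_mul, alen_inv, alen_gen] at h4
          omega
      · rw [Set.singleton_subset_iff, ← h1]
        exact hhI
    have hvv : (fun x => g * x) '' I = (⟨g, ∅, spherical_empty⟩ : ACell M).vert := by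
      rw [hI1, Set.image_singleton, mul_one]
      ext x
      simp only [Set.mem_singleton_iff, ACell.vert, Set.mem_ofPred_eq]
      constructor
      · rintro rfl
        exact ⟨1, one_mem _, by rw [tl_one, mul_one]⟩
      · rintro ⟨w, hw, rfl⟩
        rw [Finset.coe_empty] at hw
        rw [wp_empty hw, tl_one, mul_one]
    rw [hvv, full_vert]
    exact C.principal _
  · obtain ⟨s0, hs0⟩ := Finset.nonempty_iff_ne_empty.2 hRe
    rw [hdec]
    have hpre' : ∀ h' ∈ PM M (U : Set S), ∀ s ∈ (U : Set S), h' * artinGen M s ∈ I \ {h} →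
        h' ∈ I \ {h} := by
      intro h' hh' s hs hmem
      refine ⟨hpre h' hh' s hs hmem.1, ?_⟩
      rintro rfl
      have := hmax _ hmem.1
      rw [alen_mul, alen_gen] at this
      omega
    have hne' : (I \ {h}).Nonempty := by
      refine ⟨h * (artinGen M s0)⁻¹, ?_, ?_⟩
      · refine hpre _ (hRd s0 hs0) s0 (hRU' (by exact_mod_cast hs0)) ?_
        rw [inv_mul_cancel_right]
        exact hhI
      · intro h'
        have := congrArg alen (Set.mem_singleton_iff.1 h')
        rw [alen_mul, alen_inv, alen_gen] at this
        omega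
    refine C.union _ _ (isLowerSet_full _) (isLowerSet_Iic c) ?_ (C.principal c) ?_
    · refine ih (n - 1) ?_ g (I \ {h}) (hfin.subset Set.sdiff_subset) ?_ hne'
        (fun x hx => hpos x hx.1) hpre'
      · have : 0 < I.ncard := (Set.ncard_pos hfin).2 hne
        omega
      · rw [Set.ncard_sdiff_singleton_of_mem hhI, hcard]
    · rw [← full_vert, ← full_inter]
      -- the set `I''`
      set I2 : Set (ArtinGroup M) := tl '' {w | w ∈ WP M (R : Set S) ∧ w ≠ wl R} with hI2
      have hset : (fun x => g * x) '' (I \ {h}) ∩ c.vert = (fun x => g * b * x) '' I2 := by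
        ext x
        constructor
        · rintro ⟨⟨y, ⟨hyI, hyh⟩, rfl⟩, w, hw, hw'⟩
          refine ⟨tl w, ⟨w, ⟨hw, ?_⟩, rfl⟩, hw'.symm⟩
          rintro rfl
          apply hyh
          have h3 : g * y = g * b * tl (wl R : M.Group) := hw'
          rw [hbdef, ← mul_assoc, inv_mul_cancel_right] at h3
          exact mul_left_cancel h3
        · rintro ⟨_, ⟨w, ⟨hw, hw1⟩, rfl⟩, rfl⟩
          refine ⟨⟨b * tl w, ⟨hvert w hw, ?_⟩, by simp [mul_assoc]⟩, w, hw, rfl⟩
          intro h3
          have h3' : b * tl w = h := h3
          rw [hbdef, mul_assoc] at h3'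
          have h4 : (tl (wl R : M.Group))⁻¹ * tl w = 1 := by
            have := congrArg (fun z => h⁻¹ * z) h3'
            simpa using this
          have h5 : tl w = tl (wl R : M.Group) := by
            have := congrArg (fun z => tl (wl R : M.Group) * z) h4
            simpa using this
          exact hw1 (tl_injective h5)
      rw [hset]
      have hWfin : (WP M (R : Set S) : Set M.Group).Finite := hRs
      have hI2fin : I2.Finite := (hWfin.subset fun w hw => hw.1).image _
      have hcard2 : I2.ncard < n := by
        have e1 : I2.ncard < (tl '' (WP M (R : Set S) : Set M.Group)).ncard := by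
          apply Set.ncard_lt_ncard _ (hWfin.image _)
          refine ⟨Set.image_mono fun w hw => hw.1, ?_⟩
          intro hsub
          obtain ⟨w, ⟨_, hw1⟩, hw2⟩ := hsub ⟨wl R, wl_mem R, rfl⟩
          exact hw1 (tl_injective hw2)
        have e2 : (tl '' (WP M (R : Set S) : Set M.Group)).ncard ≤ I.ncard := by
          refine Set.ncard_le_ncard_of_injOn (fun x => b * x) ?_ ?_ hfin
          · rintro _ ⟨w, hw, rfl⟩
            exact hvert w hw
          · intro x _ y _ hxy
            exact mul_left_cancel hxy
        omega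
      refine ih _ hcard2 (g * b) I2 hI2fin rfl ?_ ?_ ?_
      · refine ⟨_, 1, ⟨one_mem _, ?_⟩, rfl⟩
        intro h1
        have h2 := wl_len hRs (simple_mem_WP (M := M) (T := (R : Set S)) (t := s0)
          (by exact_mod_cast hs0))
        rw [← h1, len_one, len_simple] at h2
        omega
      · rintro _ ⟨w, ⟨hw, _⟩, rfl⟩
        exact PM_mono hRU' (tl_mem_PM hw)
      · rintro h' hh' s hs ⟨w, ⟨hw, hw1⟩, hww⟩
        have e1 : w = toW M h' * M.simple s := by
          rw [← toW_tl w, hww, map_mul, toW_gen]
        have e2 : (len M w : ℤ) = alen h' + 1 := by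
          rw [← alen_tl, hww, alen_mul, alen_gen]
        have e3 := len_toW_le hh'
        have e4 : w * M.simple s = toW M h' := by rw [e1, mul_simple_simple]
        have e5 : len M (w * M.simple s) < len M w := by
          rw [e4]
          omega
        have e6 : s ∈ (R : Set S) := mem_of_desc hw e5
        have e7 : h' = tl (w * M.simple s) := by
          have := tl_eq_mul_of_desc e5
          rw [hww] at this
          exact mul_right_cancel this
        refine ⟨w * M.simple s, ⟨mul_mem hw (simple_mem_WP e6), ?_⟩, e7.symm⟩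
        intro e8
        have e9 := wl_len hRs hw
        rw [e8] at e5
        omega

/-- positive elements of bounded length -/
def ball (M : CoxeterMatrix S) (U : Set S) (n : ℕ) : Set (ArtinGroup M) :=
  {x | x ∈ PM M U ∧ alen x ≤ n}

theorem ball_mono (U : Set S) : Monotone (ball M U) := fun m n h x hx =>
  ⟨hx.1, hx.2.trans (by exact_mod_cast h)⟩

theorem ball_finite {U : Set S} (hU : U.Finite) (n : ℕ) : (ball M U n).Finite := by
  induction n with
  | zero =>
    refine (Set.finite_singleton (1 : ArtinGroup M)).subset ?_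
    rintro x ⟨hx, hl⟩
    rcases PM_cases hx with h | ⟨s, hs, hs'⟩
    · exact h
    · exfalso
      have := alen_nonneg hs'
      rw [alen_mul, alen_inv, alen_gen] at this
      push_cast at hl
      omega
  | succ n ih =>
    refine ((Set.finite_singleton (1 : ArtinGroup M)).union
      (Set.Finite.image2 (fun x s => x * artinGen M s) ih hU)).subset ?_
    rintro x ⟨hx, hl⟩
    rcases PM_cases hx with h | ⟨s, hs, hs'⟩
    · exact Or.inl h
    · refine Or.inr ⟨x * (artinGen M s)⁻¹, ⟨hs', ?_⟩, s, hs, by simp⟩
      rw [alen_mul, alen_inv, alen_gen]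
      push_cast at hl
      omega

theorem one_mem_ball (U : Set S) (n : ℕ) : (1 : ArtinGroup M) ∈ ball M U n :=
  ⟨one_mem _, by rw [alen_one]; positivity⟩

theorem good_ball {Good : Set (ACell M) → Prop} (C : GoodClass Good) {U : Finset S} (hU : Spherical M U)
    (lcm : LcmProp M U) (g : ArtinGroup M) (n : ℕ) :
    Good (full ((fun x => g * x) '' ball M (U : Set S) n)) := by
  refine good_prefix C hU lcm _ g (ball M (U : Set S) n) (ball_finite U.finite_toSet n) rfl
    ⟨1, one_mem_ball _ _⟩ (fun h hh => hh.1) ?_
  rintro h hh s _ ⟨_, h2⟩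
  rw [alen_mul, alen_gen] at h2
  exact ⟨hh, by omega⟩

theorem good_pos {Good : Set (ACell M) → Prop} (C : GoodClass Good) {U : Finset S} (hU : Spherical M U)
    (lcm : LcmProp M U) (g : ArtinGroup M) :
    Good (full ((fun x => g * x) '' (PM M (U : Set S) : Set (ArtinGroup M)))) := by
  have h1 : (PM M (U : Set S) : Set (ArtinGroup M)) = ⋃ n, ball M (U : Set S) n := by
    ext x
    simp only [SetLike.mem_coe, Set.mem_iUnion]
    constructor
    · intro hx
      exact ⟨(alen x).toNat, hx, Int.self_le_toNat _⟩
    · rintro ⟨n, hn⟩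
      exact hn.1
  rw [h1, Set.image_iUnion, full_iUnion]
  · refine C.iUnion _ (fun _ => isLowerSet_full _) ?_ fun n => good_ball C hU lcm g n
    exact Monotone.directed_le fun m n h => full_mono (Set.image_mono (ball_mono _ h))
  · exact Monotone.directed_le fun m n h => Set.image_mono (ball_mono _ h)

/-- **The spherical case**: for spherical `U` the subcomplex of all cells `(x, T)` with
`x ∈ g A_U`, `T ⊆ U`, belongs to every good class. -/
theorem good_spherical {Good : Set (ACell M) → Prop} (C : GoodClass Good) {U : Finset S} (hU : Spherical M U)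
    (lcm : LcmProp M U) (g : ArtinGroup M) :
    Good (full {x | g⁻¹ * x ∈ AP M (U : Set S)}) := by
  have hAP : ∀ x ∈ AP M (U : Set S), ∃ k : ℕ,
      (tl (wl U : M.Group)) ^ k * x ∈ PM M (U : Set S) := by
    have : Finite (WP M (U : Set S)) := hU
    exact fun x hx => exists_Dl_pow_mul_mem hx
  set D : ArtinGroup M := tl (wl U : M.Group) with hD
  have hDpos : D ∈ PM M (U : Set S) := tl_mem_PM (wl_mem U)
  have h1 : {x | g⁻¹ * x ∈ AP M (U : Set S)} =
      ⋃ k : ℕ, (fun x => g * (D ^ k)⁻¹ * x) '' (PM M (U : Set S) : Set (ArtinGroup M)) := by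
    ext x
    simp only [Set.mem_ofPred_eq, Set.mem_iUnion, Set.mem_image, SetLike.mem_coe]
    constructor
    · intro hx
      obtain ⟨k, hk⟩ := hAP _ hx
      exact ⟨k, _, hk, by group⟩
    · rintro ⟨k, y, hy, rfl⟩
      have h2 : g⁻¹ * (g * (D ^ k)⁻¹ * y) = (D ^ k)⁻¹ * y := by group
      rw [h2]
      exact mul_mem (inv_mem (pow_mem (mem_AP_of_PM hDpos) k)) (mem_AP_of_PM hy)
  have hmono : Monotone fun k : ℕ =>
      (fun x => g * (D ^ k)⁻¹ * x) '' (PM M (U : Set S) : Set (ArtinGroup M)) := by
    refine monotone_nat_of_le_succ fun k => ?_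
    rintro _ ⟨y, hy, rfl⟩
    refine ⟨D * y, mul_mem hDpos hy, ?_⟩
    simp only [pow_succ, mul_inv_rev]
    group
  rw [h1, full_iUnion _ (Monotone.directed_le hmono)]
  refine C.iUnion _ (fun _ => isLowerSet_full _) ?_ fun k => good_pos C hU lcm _
  exact Monotone.directed_le fun m n h => full_mono (hmono h)

end Vale.Agent.P203.Sph
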