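import Vale.Agent.P203.Gar.Lift

/-!
# P203, block SPH, part 1: the cell poset of the universal cover of the Salvetti complex

A cell is a pair `(g, T)`, `g` in the Artin group, `T` spherical; `(g', T') ≤ (g, T)` iff
`T' ⊆ T` and `g' = g w̃` with `w ∈ W_T` of minimal length in `w W_{T'}`.  Every subcomplex that is
needed is a union of full subcomplexes `full J` spanned by sets `J` of vertices.
-/

namespace Vale.Agent.P203.Sph

open CoxeterSystem Vale.Agent.P203.Gar Vale.Agent.P203.Cox

variable {S : Type} {M : CoxeterMatrix S}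

/-! ### Coxeter facts in terms of `len` -/

theorem len_one' : len M (1 : M.Group) = 0 := M.toCoxeterSystem.length_one

theorem WP_mono {T T' : Set S} (h : T ⊆ T') : WP M T ≤ WP M T' := parab_mono h

theorem simple_mem_WP {T : Set S} {t : S} (h : t ∈ T) : M.simple t ∈ WP M T :=
  simple_mem_parab (cs := M.toCoxeterSystem) h

theorem mem_of_desc {T : Set S} {w : M.Group} (hw : w ∈ WP M T) {s : S}
    (h : len M (w * M.simple s) < len M w) : s ∈ T := desc_mem hw h

theorem len_mul_of_min {T : Set S} {v w : M.Group}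
    (hv : ∀ t ∈ T, len M v < len M (v * M.simple t)) (hw : w ∈ WP M T) :
    len M (v * w) = len M v + len M w := length_min_mul (cs := M.toCoxeterSystem) hv hw

theorem mul_simple_simple (w : M.Group) (s : S) : w * M.simple s * M.simple s = w :=
  M.toCoxeterSystem.simple_mul_simple_cancel_right s

theorem len_lt_or (w : M.Group) (s : S) :
    len M (w * M.simple s) < len M w ∨ len M w < len M (w * M.simple s) := by
  rcases len_mul_simple w s with h | h <;> omega

/-! ### Cells -/

/-- A cell `(g, T)` of the universal cover of the Salvetti complex. -/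
@[ext] structure ACell (M : CoxeterMatrix S) where
  /-- the base vertex -/
  g : ArtinGroup M
  /-- the type -/
  T : Finset S
  /-- the type is spherical -/
  sph : Spherical M T

/-- `w ∈ W_T` is of minimal length in `w W_{T'}`. -/
def MinIn (M : CoxeterMatrix S) (T T' : Set S) (w : M.Group) : Prop :=
  w ∈ WP M T ∧ ∀ t ∈ T', len M w < len M (w * M.simple t)

theorem MinIn.mul {T T' T'' : Set S} {v w : M.Group} (hv : MinIn M T T' v)
    (hw : MinIn M T' T'' w) (hT : T' ⊆ T) (hT' : T'' ⊆ T') :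
    MinIn M T T'' (v * w) ∧ len M (v * w) = len M v + len M w := by
  have h1 := len_mul_of_min hv.2 hw.1
  refine ⟨⟨mul_mem hv.1 (WP_mono hT hw.1), fun t ht => ?_⟩, h1⟩
  rw [mul_assoc, h1, len_mul_of_min hv.2 (mul_mem hw.1 (simple_mem_WP (hT' ht)))]
  have := hw.2 t ht
  omega

theorem minIn_one (T T' : Set S) : MinIn M T T' 1 :=
  ⟨one_mem _, fun t _ => by rw [one_mul, len_one', len_simple]; omega⟩

theorem MinIn.eq_one {T : Set S} {w : M.Group} (h : MinIn M T T w) : w = 1 := by
  have h1 := len_mul_of_min h.2 (inv_mem h.1)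
  rw [mul_inv_cancel, len_one'] at h1
  have : len M w = 0 := by omega
  exact M.toCoxeterSystem.length_eq_zero_iff.1 this

instance : PartialOrder (ACell M) where
  le c d := c.T ⊆ d.T ∧ ∃ w, MinIn M d.T c.T w ∧ c.g = d.g * tl w
  le_refl c := ⟨subset_rfl, 1, minIn_one _ _, by rw [tl_one, mul_one]⟩
  le_trans c d e hcd hde := by
    obtain ⟨h1, w, hw, hg⟩ := hcd
    obtain ⟨h2, v, hv, hg'⟩ := hde
    obtain ⟨h3, h4⟩ := hv.mul hw (by exact_mod_cast h2) (by exact_mod_cast h1)
    exact ⟨h1.trans h2, v * w, h3, by rw [tl_mul h4, hg, hg', mul_assoc]⟩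
  le_antisymm c d hcd hdc := by
    obtain ⟨h1, w, hw, hg⟩ := hcd
    obtain ⟨h2, v, hv, hg'⟩ := hdc
    have hT : c.T = d.T := subset_antisymm h1 h2
    rw [hT] at hw
    have := hw.eq_one
    subst this
    rw [tl_one, mul_one] at hg
    exact ACell.ext hg hT

theorem ACell.le_def {c d : ACell M} :
    c ≤ d ↔ c.T ⊆ d.T ∧ ∃ w, MinIn M d.T c.T w ∧ c.g = d.g * tl w := Iff.rfl

/-- the vertices of a cell -/
def ACell.vert (c : ACell M) : Set (ArtinGroup M) := {x | ∃ w ∈ WP M (c.T : Set S), x = c.g * tl w}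

/-- The full subcomplex spanned by a set of vertices. -/
def full (J : Set (ArtinGroup M)) : Set (ACell M) := {c | ∀ w ∈ WP M (c.T : Set S), c.g * tl w ∈ J}

theorem mem_full {J : Set (ArtinGroup M)} {c : ACell M} :
    c ∈ full J ↔ ∀ w ∈ WP M (c.T : Set S), c.g * tl w ∈ J := Iff.rfl

theorem mem_full_iff_vert {J : Set (ArtinGroup M)} {c : ACell M} :
    c ∈ full J ↔ c.vert ⊆ J := by
  rw [mem_full]
  constructor
  · rintro h x ⟨w, hw, rfl⟩
    exact h w hw
  · intro h w hw
    exact h ⟨w, hw, rfl⟩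

theorem vert_subset_of_le {c d : ACell M} (h : c ≤ d) : c.vert ⊆ d.vert := by
  obtain ⟨h1, w, hw, hg⟩ := h
  rintro x ⟨v, hv, rfl⟩
  have h2 := len_mul_of_min hw.2 hv
  exact ⟨w * v, mul_mem hw.1 (WP_mono (by exact_mod_cast h1) hv),
    by rw [hg, mul_assoc, ← tl_mul h2]⟩

theorem isLowerSet_full (J : Set (ArtinGroup M)) : IsLowerSet (full J : Set (ACell M)) := by
  intro c d hdc hc
  rw [mem_full_iff_vert] at hc ⊢
  exact (vert_subset_of_le hdc).trans hc

theorem full_inter (J K : Set (ArtinGroup M)) : full (J ∩ K) = full J ∩ full K := by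
  ext c
  simp only [Set.mem_inter_iff, mem_full_iff_vert, Set.subset_inter_iff]

theorem full_mono {J K : Set (ArtinGroup M)} (h : J ⊆ K) : full J ⊆ full K :=
  fun _ hc w hw => h (hc w hw)

theorem g_mem_vert (c : ACell M) : c.g ∈ c.vert := ⟨1, one_mem _, by rw [tl_one, mul_one]⟩

/-- a cell whose vertices are vertices of `c` is a face of `c` -/
theorem le_of_vert_subset {c d : ACell M} (h : d.vert ⊆ c.vert) : d ≤ c := by
  obtain ⟨w, hw, hg⟩ := h (g_mem_vert d)
  have key : ∀ t ∈ d.T, t ∈ c.T ∧ len M w < len M (w * M.simple t) := by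
    intro t ht
    obtain ⟨v, hv, hg'⟩ := h ⟨M.simple t, simple_mem_WP (T := (d.T : Set S))
      (by exact_mod_cast ht), rfl⟩
    rw [hg, mul_assoc, mul_left_cancel_iff] at hg'
    have h1 : v = w * M.simple t := by
      rw [← toW_tl v, ← hg', map_mul, toW_tl, toW_tl]
    have h2 : len M v = len M w + 1 := by
      have := congrArg alen hg'
      rw [alen_mul, alen_tl, alen_tl, alen_tl, len_simple] at this
      omega
    subst h1
    refine ⟨?_, by omega⟩
    refine Finset.mem_coe.1 (mem_of_desc (T := (c.T : Set S)) (s := t) hv ?_)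
    rw [mul_simple_simple]
    omega
  exact ⟨fun t ht => (key t ht).1, w, ⟨hw, fun t ht => (key t ht).2⟩, hg⟩

/-- the principal lower set of a cell is the full subcomplex on its vertices. -/
theorem full_vert (c : ACell M) : full c.vert = Set.Iic c := by
  ext d
  rw [mem_full_iff_vert, Set.mem_Iic]
  exact ⟨le_of_vert_subset, vert_subset_of_le⟩

/-- cells have finitely many vertices -/
theorem vert_finite (c : ACell M) : c.vert.Finite := by
  have : c.vert = (fun w => c.g * tl w) '' (WP M (c.T : Set S) : Set M.Group) := by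
    ext x
    simp only [ACell.vert, Set.mem_ofPred_eq, Set.mem_image, SetLike.mem_coe]
    exact ⟨fun ⟨w, hw, h⟩ => ⟨w, hw, h.symm⟩, fun ⟨w, hw, h⟩ => ⟨w, hw, h.symm⟩⟩
  rw [this]
  exact Set.Finite.image _ c.sph

/-- the full subcomplex of a directed union -/
theorem full_iUnion {ι : Type} [Nonempty ι] (J : ι → Set (ArtinGroup M))
    (hJ : Directed (· ⊆ ·) J) : full (⋃ i, J i) = ⋃ i, full (J i) := by
  apply Set.Subset.antisymm
  · intro c hc
    rw [Set.mem_iUnion]
    have h1 : c.vert ⊆ ⋃ i, J i := mem_full_iff_vert.1 hc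
    have h2 := vert_finite c
    rw [← h2.coe_toFinset] at h1
    obtain ⟨i, hi⟩ := hJ.exists_mem_subset_of_finset_subset_biUnion h1
    rw [h2.coe_toFinset] at hi
    exact ⟨i, mem_full_iff_vert.2 hi⟩
  · exact Set.iUnion_subset fun i => full_mono (Set.subset_iUnion J i)

/-- membership in the full subcomplex on a coset of `A_U`: `g ∈ a A_U` and `T ⊆ U` -/
theorem mem_full_coset {a : ArtinGroup M} {U : Set S} {c : ACell M} :
    c ∈ full {x | a⁻¹ * x ∈ AP M U} ↔ a⁻¹ * c.g ∈ AP M U ∧ (c.T : Set S) ⊆ U := by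
  rw [mem_full_iff_vert]
  constructor
  · intro h
    have h1 : a⁻¹ * c.g ∈ AP M U := h (g_mem_vert c)
    refine ⟨h1, fun t ht => ?_⟩
    have h2 : a⁻¹ * (c.g * tl (M.simple t)) ∈ AP M U := h ⟨_, simple_mem_WP ht, rfl⟩
    rw [tl_simple, ← mul_assoc] at h2
    have h3 : artinGen M t ∈ AP M U := by
      have := mul_mem (inv_mem h1) h2
      rwa [inv_mul_cancel_left] at this
    have h4 := toW_mem_WP h3
    rw [toW_gen] at h4
    exact simple_mem_parab_iff.1 h4
  · rintro ⟨h1, h2⟩ x ⟨w, hw, rfl⟩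
    show a⁻¹ * (c.g * tl w) ∈ AP M U
    rw [← mul_assoc]
    exact mul_mem h1 (tl_mem_AP (WP_mono h2 hw))

/-! ### Good classes -/

/-- A class of subcomplexes which contains the cells and is closed under good unions and under
directed unions. -/
structure GoodClass {P : Type} [PartialOrder P] (Good : Set P → Prop) : Prop where
  principal : ∀ a, Good (Set.Iic a)
  union : ∀ A B, IsLowerSet A → IsLowerSet B → Good A → Good B → Good (A ∩ B) → Good (A ∪ B)
  iUnion : ∀ {ι : Type} [Nonempty ι] (A : ι → Set P), (∀ i, IsLowerSet (A i)) →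
    Directed (· ⊆ ·) A → (∀ i, Good (A i)) → Good (⋃ i, A i)

end Vale.Agent.P203.Sph
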